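import Mathlib
import Vale.Agent.Lib.P328.RP.Defs
import Vale.Agent.Lib.P328.RP.ThreeProj
import Vale.Agent.Lib.P328.RP.UnitRow
import Vale.Agent.Lib.P328.RP.Restricted

/-!
P328: a crude spectral gap for three-row tables whose last row has sum one, for arbitrary
column sums.

For `r 2 = 1` and every `f : CT 3 n r c → ℝ`,
`ip f f - ip f (R univ f) ≤ 4 * n * ∑ over the row pairs q of (ip f f - ip f (R q f))`
(`crude_threeRow`), and the same inequality inside a row triple of a larger table system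
(`crude_triple_on`).
-/

namespace Vale.Agent.Lib.P328.RP

open Finset
open Vale.Agent.Lib.P335.Bip

namespace CrudeGap

section abstract

variable {Ω K : Type*} [Fintype Ω] [DecidableEq K]

/-- Sum of squared differences over the pairs in the same class of `κ`, through the
conditional expectation. -/
theorem pair_sum_class (κ : Ω → K) (φ : Ω → ℝ) :
    ∑ x, ∑ y ∈ univ.filter (fun y => κ y = κ x), (φ x - φ y) ^ 2
      = 2 * ∑ x, ((univ.filter (fun y => κ y = κ x)).card : ℝ) * (φ x - cexp κ φ x) ^ 2 := by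
  have step1 : ∀ x, ∑ y ∈ univ.filter (fun y => κ y = κ x), (φ x - φ y) ^ 2
      = ((univ.filter (fun y => κ y = κ x)).card : ℝ) * (φ x - cexp κ φ x) ^ 2
        + ∑ y ∈ univ.filter (fun y => κ y = κ x), (φ y - cexp κ φ y) ^ 2 := by
    intro x
    have hN := fib_card_pos κ x
    have hm : ∑ y ∈ univ.filter (fun y => κ y = κ x), φ y
        = ((univ.filter (fun y => κ y = κ x)).card : ℝ) * cexp κ φ x := by
      rw [cexp_apply, mul_div_cancel₀ _ hN.ne']
    have h2 : ∑ y ∈ univ.filter (fun y => κ y = κ x), (φ y - cexp κ φ y) ^ 2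
        = ∑ y ∈ univ.filter (fun y => κ y = κ x), (φ y - cexp κ φ x) ^ 2 := by
      refine Finset.sum_congr rfl (fun y hy => ?_)
      rw [cexp_congr κ (Finset.mem_filter.mp hy).2 φ]
    have h3 : ∀ y, (φ x - φ y) ^ 2 = (φ x - cexp κ φ x) ^ 2
        - 2 * (φ x - cexp κ φ x) * (φ y - cexp κ φ x) + (φ y - cexp κ φ x) ^ 2 := by
      intro y
      ring
    rw [h2, Finset.sum_congr rfl (fun y _ => h3 y), Finset.sum_add_distrib,
      Finset.sum_sub_distrib, Finset.sum_const, ← Finset.mul_sum, Finset.sum_sub_distrib,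
      Finset.sum_const, hm, nsmul_eq_mul, nsmul_eq_mul]
    ring
  have step2 : ∑ x, ∑ y ∈ univ.filter (fun y => κ y = κ x), (φ y - cexp κ φ y) ^ 2
      = ∑ x, ((univ.filter (fun y => κ y = κ x)).card : ℝ) * (φ x - cexp κ φ x) ^ 2 := by
    have h1 : ∀ x, ∑ y ∈ univ.filter (fun y => κ y = κ x), (φ y - cexp κ φ y) ^ 2
        = ∑ y, if κ y = κ x then (φ y - cexp κ φ y) ^ 2 else 0 := by
      intro x
      rw [Finset.sum_filter]
    rw [Finset.sum_congr rfl (fun x _ => h1 x), Finset.sum_comm]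
    refine Finset.sum_congr rfl (fun y _ => ?_)
    have h4 : ∑ x, (if κ y = κ x then (φ y - cexp κ φ y) ^ 2 else 0)
        = ∑ x ∈ univ.filter (fun x => κ x = κ y), (φ y - cexp κ φ y) ^ 2 := by
      rw [Finset.sum_filter]
      refine Finset.sum_congr rfl (fun x _ => ?_)
      by_cases h : κ y = κ x
      · rw [if_pos h, if_pos h.symm]
      · rw [if_neg h, if_neg (fun h' => h h'.symm)]
    rw [h4, Finset.sum_const, nsmul_eq_mul]
  rw [Finset.sum_congr rfl (fun x _ => step1 x), Finset.sum_add_distrib, step2]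
  ring

/-- Sum of squared differences over all pairs. -/
theorem pair_sum_univ (φ : Ω → ℝ) :
    ∑ x, ∑ y, (φ x - φ y) ^ 2 = 2 * ((Fintype.card Ω : ℝ) * ip φ φ - (∑ x, φ x) ^ 2) := by
  have h3 : ∀ x y, (φ x - φ y) ^ 2 = φ x * φ x - 2 * (φ x * φ y) + φ y * φ y := by
    intro x y
    ring
  have h4 : ∀ x, ∑ y, (φ x - φ y) ^ 2
      = (Fintype.card Ω : ℝ) * (φ x * φ x) - 2 * (φ x * ∑ y, φ y) + ip φ φ := by
    intro x
    rw [Finset.sum_congr rfl (fun y _ => h3 x y), Finset.sum_add_distrib,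
      Finset.sum_sub_distrib, Finset.sum_const, ← Finset.mul_sum, ← Finset.mul_sum,
      Finset.card_univ, nsmul_eq_mul]
    rfl
  rw [Finset.sum_congr rfl (fun x _ => h4 x), Finset.sum_add_distrib, Finset.sum_sub_distrib,
    ← Finset.mul_sum, ← Finset.mul_sum, ← Finset.sum_mul, Finset.sum_const, Finset.card_univ,
    nsmul_eq_mul]
  unfold ip
  ring

/-- `‖u - v‖² ≤ 4 ‖u‖² + (4/3) ‖v‖²`. -/
theorem ip_sub_le (u v : Ω → ℝ) :
    ip (u - v) (u - v) ≤ 4 * ip u u + 4 / 3 * ip v v := by
  have h := ip_self_nonneg ((3 : ℝ) • u + v)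
  rw [ip_add_left, ip_add_right, ip_add_right, ip_smul_left, ip_smul_left, ip_smul_right,
    ip_smul_right, ip_comm v u] at h
  rw [ip_sub_left, ip_sub_right, ip_sub_right, ip_comm v u]
  linarith

/-- The conditional variance of a conditional expectation `cexp κ2 f` given `κ`, against the
conditional variances of `f` given `κ` and given `κ2`. -/
theorem cvar_factor_le {K2 : Type*} [DecidableEq K2] (κ : Ω → K) (κ2 : Ω → K2) (f : Ω → ℝ) :
    ip (cexp κ2 f) (cexp κ2 f) - ip (cexp κ2 f) (cexp κ (cexp κ2 f))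
      ≤ 4 * (ip f f - ip f (cexp κ f)) + 4 / 3 * (ip f f - ip f (cexp κ2 f)) := by
  have h1 : cexp κ2 f - cexp κ (cexp κ2 f)
      = (f - cexp κ f) - ((f - cexp κ2 f) - cexp κ (f - cexp κ2 f)) := by
    rw [map_sub]
    abel
  have h2 := ip_sub_le (f - cexp κ f) ((f - cexp κ2 f) - cexp κ (f - cexp κ2 f))
  rw [← h1] at h2
  have h3 := ip_sub_cexp κ (cexp κ2 f)
  have h4 := ip_sub_cexp κ f
  have h5 := ip_sub_cexp κ (f - cexp κ2 f)
  have h6 := ip_sub_cexp κ2 f
  have h7 := ip_cexp_self_nonneg κ (f - cexp κ2 f)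
  linarith

end abstract

section unit

variable {n : ℕ} {r : Fin 3 → ℕ} {c : Fin n → ℕ}

open UnitRow

/-- A function of the last row is a function of the unit column. -/
theorem exists_factor (hr : r 2 = 1) (φ : CT 3 n r c → ℝ)
    (hφ : ∀ x y : CT 3 n r c, x.1 2 = y.1 2 → φ x = φ y) :
    ∃ g : Fin n → ℝ, ∀ x, φ x = g (ucol hr x) := by
  classical
  refine ⟨fun j => if h : ∃ y : CT 3 n r c, ucol hr y = j then φ h.choose else 0, ?_⟩
  intro x
  have hex : ∃ y : CT 3 n r c, ucol hr y = ucol hr x := ⟨x, rfl⟩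
  simp only
  rw [dif_pos hex]
  apply hφ
  funext l
  rw [row2_apply hr x l, row2_apply hr hex.choose l, hex.choose_spec]

/-- A class of one of the first two rows has at most `n` tables. -/
theorem class_card_le (hr : r 2 = 1) (a : Fin 3) (ha : a ≠ 2) (x : CT 3 n r c) :
    (univ.filter (fun y : CT 3 n r c => y.1 a = x.1 a)).card ≤ n := by
  have h := Finset.card_le_card_of_injOn
    (s := univ.filter (fun y : CT 3 n r c => y.1 a = x.1 a))
    (t := (univ : Finset (Fin n))) (fun y => ucol hr y) (fun y _ => Finset.mem_univ _)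
    (by
      intro y hy z hz hyz
      have hy' := (Finset.mem_filter.mp (Finset.mem_coe.mp hy)).2
      have hz' := (Finset.mem_filter.mp (Finset.mem_coe.mp hz)).2
      exact ext_of hr a ha y z (hy'.trans hz'.symm) hyz)
  rw [Finset.card_univ, Fintype.card_fin] at h
  exact h

/-- The unit column of any table is not full in row `0` or in row `1` of `x`, so a squared
difference is bounded by the two class sums at `x`. -/
theorem sq_le_class_sums (hr : r 2 = 1) (g : Fin n → ℝ) (x x' : CT 3 n r c) :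
    (g (ucol hr x) - g (ucol hr x')) ^ 2
      ≤ ∑ y ∈ univ.filter (fun y : CT 3 n r c => y.1 0 = x.1 0),
          (g (ucol hr x) - g (ucol hr y)) ^ 2
        + ∑ y ∈ univ.filter (fun y : CT 3 n r c => y.1 1 = x.1 1),
          (g (ucol hr x) - g (ucol hr y)) ^ 2 := by
  have e0 : ∑ y ∈ univ.filter (fun y : CT 3 n r c => y.1 0 = x.1 0),
      (g (ucol hr x) - g (ucol hr y)) ^ 2
      = ∑ j ∈ univ.filter (fun j : Fin n => x.1 0 j < c j), (g (ucol hr x) - g j) ^ 2 :=
    sum_class hr 0 (by decide) x (fun l => (g (ucol hr x) - g l) ^ 2)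
  have e1 : ∑ y ∈ univ.filter (fun y : CT 3 n r c => y.1 1 = x.1 1),
      (g (ucol hr x) - g (ucol hr y)) ^ 2
      = ∑ j ∈ univ.filter (fun j : Fin n => x.1 1 j < c j), (g (ucol hr x) - g j) ^ 2 :=
    sum_class hr 1 (by decide) x (fun l => (g (ucol hr x) - g l) ^ 2)
  rw [e0, e1]
  have hc : 1 ≤ c (ucol hr x') := by
    have h1 := col3 x' (ucol hr x')
    have h2 := ucol_one hr x'
    omega
  have hx := col3 x (ucol hr x')
  have hnn0 : 0 ≤ ∑ j ∈ univ.filter (fun j : Fin n => x.1 0 j < c j),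
      (g (ucol hr x) - g j) ^ 2 := Finset.sum_nonneg (fun j _ => sq_nonneg _)
  have hnn1 : 0 ≤ ∑ j ∈ univ.filter (fun j : Fin n => x.1 1 j < c j),
      (g (ucol hr x) - g j) ^ 2 := Finset.sum_nonneg (fun j _ => sq_nonneg _)
  by_cases h0 : x.1 0 (ucol hr x') < c (ucol hr x')
  · have h := Finset.single_le_sum (f := fun j => (g (ucol hr x) - g j) ^ 2)
      (s := univ.filter (fun j : Fin n => x.1 0 j < c j)) (fun j _ => sq_nonneg _)
      (Finset.mem_filter.mpr ⟨Finset.mem_univ _, h0⟩)
    linarith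
  · have h1 : x.1 1 (ucol hr x') < c (ucol hr x') := by omega
    have h := Finset.single_le_sum (f := fun j => (g (ucol hr x) - g j) ^ 2)
      (s := univ.filter (fun j : Fin n => x.1 1 j < c j)) (fun j _ => sq_nonneg _)
      (Finset.mem_filter.mpr ⟨Finset.mem_univ _, h1⟩)
    linarith

/-- **Variance of a function of the unit column.**  It is at most `n` times the sum of its
two conditional variances given row `0` and given row `1`. -/
theorem var_le_of_factor (hr : r 2 = 1) (g : Fin n → ℝ) (φ : CT 3 n r c → ℝ)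
    (hφ : ∀ x, φ x = g (ucol hr x)) :
    ip φ φ - ip φ (R univ φ)
      ≤ (n : ℝ) * ((ip φ φ - ip φ (cexp (fun x : CT 3 n r c => x.1 0) φ))
        + (ip φ φ - ip φ (cexp (fun x : CT 3 n r c => x.1 1) φ))) := by
  rcases isEmpty_or_nonempty (CT 3 n r c) with hE | hNE
  · have h0 : ∀ u v : CT 3 n r c → ℝ, ip u v = 0 := by
      intro u v
      unfold ip
      exact Finset.sum_eq_zero (fun x _ => (hE.false x).elim)
    simp only [h0]
    simp
  · have hZpos : 0 < (Fintype.card (CT 3 n r c) : ℝ) := by exact_mod_cast Fintype.card_pos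
    have hcl : ∀ a : Fin 3, a ≠ 2 →
        ∑ x, ∑ y ∈ univ.filter (fun y : CT 3 n r c => y.1 a = x.1 a), (φ x - φ y) ^ 2
          ≤ 2 * (n : ℝ) * (ip φ φ - ip φ (cexp (fun x : CT 3 n r c => x.1 a) φ)) := by
      intro a ha
      have h1 : ∑ x, ∑ y ∈ univ.filter (fun y : CT 3 n r c => y.1 a = x.1 a), (φ x - φ y) ^ 2
          = 2 * ∑ x, ((univ.filter (fun y : CT 3 n r c => y.1 a = x.1 a)).card : ℝ)
            * (φ x - cexp (fun x : CT 3 n r c => x.1 a) φ x) ^ 2 :=
        pair_sum_class (fun x : CT 3 n r c => x.1 a) φ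
      have h2 : ∑ x, ((univ.filter (fun y : CT 3 n r c => y.1 a = x.1 a)).card : ℝ)
            * (φ x - cexp (fun x : CT 3 n r c => x.1 a) φ x) ^ 2
          ≤ ∑ x, (n : ℝ) * (φ x - cexp (fun x : CT 3 n r c => x.1 a) φ x) ^ 2 := by
        refine Finset.sum_le_sum (fun x _ => ?_)
        have hc : ((univ.filter (fun y : CT 3 n r c => y.1 a = x.1 a)).card : ℝ) ≤ (n : ℝ) := by
          exact_mod_cast class_card_le hr a ha x
        exact mul_le_mul_of_nonneg_right hc (sq_nonneg _)
      have h3 : ∑ x, (φ x - cexp (fun x : CT 3 n r c => x.1 a) φ x) ^ 2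
          = ip φ φ - ip φ (cexp (fun x : CT 3 n r c => x.1 a) φ) := by
        rw [← ip_sub_cexp, ip_eq_sum_sq]
        rfl
      rw [← Finset.mul_sum, h3] at h2
      rw [h1]
      linarith
    have hpt : ∀ x x' : CT 3 n r c, (φ x - φ x') ^ 2
        ≤ ∑ y ∈ univ.filter (fun y : CT 3 n r c => y.1 0 = x.1 0), (φ x - φ y) ^ 2
          + ∑ y ∈ univ.filter (fun y : CT 3 n r c => y.1 1 = x.1 1), (φ x - φ y) ^ 2 := by
      intro x x'
      simp only [hφ]
      exact sq_le_class_sums hr g x x'
    have hsum : ∑ x, ∑ x', (φ x - φ x') ^ 2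
        ≤ (Fintype.card (CT 3 n r c) : ℝ)
          * (∑ x, ∑ y ∈ univ.filter (fun y : CT 3 n r c => y.1 0 = x.1 0), (φ x - φ y) ^ 2
            + ∑ x, ∑ y ∈ univ.filter (fun y : CT 3 n r c => y.1 1 = x.1 1), (φ x - φ y) ^ 2) := by
      rw [← Finset.sum_add_distrib, Finset.mul_sum]
      refine Finset.sum_le_sum (fun x _ => ?_)
      refine (Finset.sum_le_sum (fun x' _ => hpt x x')).trans ?_
      rw [Finset.sum_const, Finset.card_univ, nsmul_eq_mul]
    have hU := pair_sum_univ φ
    have hR := ip_R_univ r c φ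
    have h0 := hcl 0 (by decide)
    have h1 := hcl 1 (by decide)
    have hZR : (Fintype.card (CT 3 n r c) : ℝ) * ip φ (R univ φ) = (∑ x, φ x) ^ 2 := by
      rw [hR, mul_div_cancel₀ _ hZpos.ne']
    have hmul := mul_le_mul_of_nonneg_left (add_le_add h0 h1) hZpos.le
    have hfin : 2 * (Fintype.card (CT 3 n r c) : ℝ) * (ip φ φ - ip φ (R univ φ))
        ≤ 2 * (Fintype.card (CT 3 n r c) : ℝ)
          * ((n : ℝ) * ((ip φ φ - ip φ (cexp (fun x : CT 3 n r c => x.1 0) φ))
            + (ip φ φ - ip φ (cexp (fun x : CT 3 n r c => x.1 1) φ)))) := by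
      have e : 2 * (Fintype.card (CT 3 n r c) : ℝ) * (ip φ φ - ip φ (R univ φ))
          = 2 * ((Fintype.card (CT 3 n r c) : ℝ) * ip φ φ - (∑ x, φ x) ^ 2) := by
        rw [← hZR]
        ring
      rw [e, ← hU]
      refine (hsum.trans hmul).trans (le_of_eq ?_)
      ring
    exact le_of_mul_le_mul_left hfin (by positivity)

end unit

end CrudeGap

/-- **Crude three-row gap, last row of sum one, arbitrary column sums.**  On the `3 × n`
tables with row sums `r`, `r 2 = 1`, and column sums `c`, the variance of `f` is at most `4 n`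
times the sum over the three row pairs `q` of the quadratic forms of `1 - R q`. -/
theorem crude_threeRow {n : ℕ} (r : Fin 3 → ℕ) (c : Fin n → ℕ) (hr : r 2 = 1)
    (f : CT 3 n r c → ℝ) :
    ip f f - ip f (R univ f)
      ≤ 4 * (n : ℝ) * ∑ q ∈ (univ : Finset (Fin 3)).powersetCard 2, (ip f f - ip f (R q f)) := by
  have key : ∑ q ∈ (univ : Finset (Fin 3)).powersetCard 2, (ip f f - ip f (R q f))
      = (ip f f - ip f (cexp (fun x : CT 3 n r c => x.1 0) f))
        + (ip f f - ip f (cexp (fun x : CT 3 n r c => x.1 1) f))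
        + (ip f f - ip f (cexp (fun x : CT 3 n r c => x.1 2) f)) := by
    rw [ThreeTwo.sum_pairs (fun q => ip f f - ip f (R q f)), Fin.sum_univ_three,
      R_erase_eq r c 0, R_erase_eq r c 1, R_erase_eq r c 2]
  rw [key]
  rcases isEmpty_or_nonempty (CT 3 n r c) with hE | hNE
  · have h0 : ∀ u v : CT 3 n r c → ℝ, ip u v = 0 := by
      intro u v
      unfold ip
      exact Finset.sum_eq_zero (fun x _ => (hE.false x).elim)
    simp only [h0]
    simp
  · obtain ⟨x0⟩ := hNE
    have hn1 : (1 : ℝ) ≤ (n : ℝ) := by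
      have h := Fin.pos (UnitRow.ucol hr x0)
      exact_mod_cast h
    have hφrow : ∀ x y : CT 3 n r c, x.1 2 = y.1 2 →
        cexp (fun x : CT 3 n r c => x.1 2) f x = cexp (fun x : CT 3 n r c => x.1 2) f y :=
      fun x y h => cexp_congr (fun x : CT 3 n r c => x.1 2) h f
    obtain ⟨g, hg⟩ := CrudeGap.exists_factor hr _ hφrow
    have hK := CrudeGap.var_le_of_factor hr g _ hg
    have hφφ := ip_cexp_self (fun x : CT 3 n r c => x.1 2) f
    have hsumφ := sum_cexp (fun x : CT 3 n r c => x.1 2) f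
    have hRφ : ip (cexp (fun x : CT 3 n r c => x.1 2) f)
        (R univ (cexp (fun x : CT 3 n r c => x.1 2) f)) = ip f (R univ f) := by
      rw [ip_R_univ, ip_R_univ, hsumφ]
    have hQ0 := CrudeGap.cvar_factor_le (fun x : CT 3 n r c => x.1 0)
      (fun x : CT 3 n r c => x.1 2) f
    have hQ1 := CrudeGap.cvar_factor_le (fun x : CT 3 n r c => x.1 1)
      (fun x : CT 3 n r c => x.1 2) f
    have hA2 : 0 ≤ ip f f - ip f (cexp (fun x : CT 3 n r c => x.1 2) f) := by
      rw [← ip_sub_cexp]
      exact ip_self_nonneg _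
    have hn0 : (0 : ℝ) ≤ (n : ℝ) := Nat.cast_nonneg n
    have hmul := mul_le_mul_of_nonneg_left (add_le_add hQ0 hQ1) hn0
    have hprod := mul_nonneg (sub_nonneg.mpr hn1) hA2
    rw [hRφ] at hK
    nlinarith [hK, hmul, hprod, hφφ]

open BlockTransfer in
/-- **Crude gap inside a row triple.**  For `m × n` tables with row sums `r` and a triple of
rows `φ 0, φ 1, φ 2` whose last row has sum one: the quadratic form of `1 - R` of the triple
is at most `4 n` times the sum of the quadratic forms of `1 - R p` over the three pairs `p` of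
rows of the triple (all column sums). -/
theorem crude_triple_on {n m : ℕ} {r : Fin m → ℕ} (φ : Fin 3 ↪ Fin m) (hr : r (φ 2) = 1)
    {c : Fin n → ℕ} (f : CT m n r c → ℝ) :
    ip f f - ip f (R ((univ : Finset (Fin 3)).map φ) f)
      ≤ 4 * (n : ℝ) * ∑ p ∈ ((univ : Finset (Fin 3)).map φ).powersetCard 2,
          (ip f f - ip f (R p f)) := by
  classical
  set s : Finset (Option (Finset (Fin 3))) :=
    insertNone ((univ : Finset (Fin 3)).powersetCard 2) with hs
  set a : Option (Finset (Fin 3)) → ℝ := fun o => if o = none then -1 else 4 * (n : ℝ) with ha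
  set P : Option (Finset (Fin 3)) → Finset (Fin 3) := fun o => o.getD univ with hP
  have hcard : ((univ : Finset (Fin 3)).powersetCard 2).card = 3 := by
    rw [Finset.card_powersetCard, Finset.card_univ, Fintype.card_fin]
    rfl
  have h : ∀ (c' : Fin n → ℕ) (g : CT 3 n (r ∘ φ) c' → ℝ),
      ∑ α ∈ s, a α * ip g (E (P α) (univ : Finset (Fin n)) g)
        ≤ (12 * (n : ℝ) - 1) * ip g g := by
    intro c' g
    have h' := crude_threeRow (r ∘ φ) c' hr g
    rw [Finset.sum_sub_distrib, Finset.sum_const, hcard, nsmul_eq_mul] at h'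
    rw [hs, Finset.sum_insertNone]
    simp only [ha, hP, Option.getD_none, Option.getD_some, if_true, reduceCtorEq, if_false,
      E_univ_right]
    rw [← Finset.mul_sum]
    push_cast at h'
    linarith
  have key := block_transfer_on s a P (fun _ => (univ : Finset (Fin n))) (12 * (n : ℝ) - 1) φ h f
  rw [hs, Finset.sum_insertNone] at key
  simp only [ha, hP, Option.getD_none, Option.getD_some, if_true, reduceCtorEq, if_false,
    E_univ_right] at key
  rw [← Finset.mul_sum] at key
  rw [powersetCard_map, Finset.sum_map]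
  simp only [RelEmbedding.coe_toEmbedding, mapEmbedding_apply]
  rw [Finset.sum_sub_distrib, Finset.sum_const, hcard, nsmul_eq_mul]
  push_cast
  linarith

end Vale.Agent.Lib.P328.RP
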